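import Vale.Agent.P038.H183.Defs

/-!
# P038: the column step (row 3 of note 23183)
-/

namespace Vale.Agent.P038.H183

open Finset

variable {V : Type*} [Fintype V]

open Classical in
/-- Step (3), the induction over the in-neighbours `Q` of `y`. -/
theorem col_aux (D : OGraph V) (B U : V → Finset V)
    (h2 : ∀ (b : V) (T : Finset V), (∀ a ∈ T, b ∈ U a ∧ b ∉ B a) →
      T.card ≤ (univ.filter fun x => b ∈ II D U x ∧ ∃ a ∈ T, Adj D a x).card)
    (y : V) (Q : Finset V) :
    (∀ b ∈ Q, Adj D b y) → ∀ T : Finset V,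
      (∀ a ∈ T, (∃ b ∈ Q, b ∈ U a) ∧ y ∉ rho D (B a)) →
      T.card ≤ (univ.filter fun x => (∃ b ∈ Q, b ∈ II D U x) ∧ ∃ a ∈ T, Adj D a x).card := by
  induction Q using Finset.induction_on with
  | empty =>
    intro _ T hT
    have : T = ∅ := by
      rw [Finset.eq_empty_iff_forall_notMem]
      intro a ha
      obtain ⟨⟨b, hb, _⟩, _⟩ := hT a ha
      simp at hb
    rw [this]
    simp
  | insert b Q hb ih =>
    intro hQ T hT
    have ih' := ih (fun b' hb' => hQ b' (mem_insert_of_mem hb'))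
    set T1 := T.filter (fun a => b ∈ U a) with hT1
    set T2 := T.filter (fun a => ¬ b ∈ U a) with hT2
    have hc : T.card = T1.card + T2.card := (card_filter_add_card_filter_not (s := T) _).symm
    have k1 := h2 b T1 (by
      intro a ha
      rw [hT1, mem_filter] at ha
      refine ⟨ha.2, fun hbB => (hT a ha.1).2 ?_⟩
      exact mem_rho.2 ⟨b, hbB, hQ b (mem_insert_self _ _)⟩)
    have k2 := ih' T2 (by
      intro a ha
      rw [hT2, mem_filter] at ha
      obtain ⟨⟨b', hb', hu⟩, hr⟩ := hT a ha.1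
      refine ⟨?_, hr⟩
      rcases mem_insert.1 hb' with h | h
      · subst h; exact absurd hu ha.2
      · exact ⟨b', h, hu⟩)
    set S1 := univ.filter (fun x => b ∈ II D U x ∧ ∃ a ∈ T1, Adj D a x) with hS1
    set S2 := univ.filter (fun x => (∃ b ∈ Q, b ∈ II D U x) ∧ ∃ a ∈ T2, Adj D a x) with hS2
    have hd : Disjoint S1 S2 := by
      rw [Finset.disjoint_left]
      intro x h1 h2
      rw [hS1, mem_filter] at h1
      rw [hS2, mem_filter] at h2
      obtain ⟨a, ha, hax⟩ := h2.2.2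
      rw [hT2, mem_filter] at ha
      exact ha.2 (mem_II.1 h1.2.1 a hax)
    rw [hc]
    refine (Nat.add_le_add k1 k2).trans ?_
    rw [← card_union_of_disjoint hd]
    apply card_le_card
    intro x hx
    rw [mem_union, hS1, hS2, mem_filter, mem_filter] at hx
    rw [mem_filter]
    refine ⟨mem_univ _, ?_⟩
    rcases hx with ⟨_, h1, a, ha, hax⟩ | ⟨_, ⟨b', hb', h1⟩, a, ha, hax⟩
    · exact ⟨⟨b, mem_insert_self _ _, h1⟩, a, (mem_filter.1 ha).1, hax⟩
    · exact ⟨⟨b', mem_insert_of_mem hb', h1⟩, a, (mem_filter.1 ha).1, hax⟩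

open Classical in
/-- **Row 3.** -/
theorem col (D : OGraph V) (B U : V → Finset V) (hO : Outer D B U)
    (h2 : ∀ (b : V) (T : Finset V), (∀ a ∈ T, b ∈ U a ∧ b ∉ B a) →
      T.card ≤ (univ.filter fun x => b ∈ II D U x ∧ ∃ a ∈ T, Adj D a x).card)
    (y : V) (T : Finset V) (hT : ∀ a ∈ T, y ∈ rho D (U a) ∧ y ∉ rho D (B a)) :
    T.card ≤ (univ.filter fun x => y ∈ Ko D U x ∧ ∃ a ∈ T, Adj D a x).card := by
  have key := col_aux D B U h2 y (univ.filter fun b => Adj D b y)
    (fun b hb => (mem_filter.1 hb).2) T (by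
      intro a ha
      obtain ⟨h1, h3⟩ := hT a ha
      obtain ⟨b, hb, hby⟩ := mem_rho.1 h1
      exact ⟨⟨b, mem_filter.2 ⟨mem_univ _, hby⟩, hb⟩, h3⟩)
  refine key.trans (card_le_card ?_)
  intro x hx
  rw [mem_filter] at hx ⊢
  obtain ⟨_, ⟨b, hb, hbx⟩, a, ha, hax⟩ := hx
  have hby : Adj D b y := (mem_filter.1 hb).2
  refine ⟨mem_univ _, ?_, a, ha, hax⟩
  rw [mem_Ko]
  intro a' ha'
  refine ⟨mem_rho.2 ⟨b, mem_II.1 hbx a' ha', hby⟩, ?_⟩
  rintro rfl
  -- now `y ∈ N⁻[x]`
  have hbU : b ∈ U y := mem_II.1 hbx y ha'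
  have hbe : y = b := by
    rcases hby with h | h
    · exact h
    · exact absurd hbU (hO.far y b h)
  subst hbe
  rcases ha' with h | h
  · subst h
    exact (hT a ha).2 (mem_rho.2 ⟨x, hO.nb a x hax, adj_refl x⟩)
  · exact hO.far x y h (mem_II.1 hbx x (adj_refl x))

end Vale.Agent.P038.H183
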