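import Vale.Agent.P038.H183.Greedy

/-!
# P038: the counting step (row 5 of note 23183)
-/

namespace Vale.Agent.P038.H183

open Finset

variable {V : Type*} [Fintype V] [DecidableEq V]

theorem rho_II_subset (D : OGraph V) {B U : V → Finset V} (hO : Outer D B U) (x : V) :
    rho D (II D U x) ⊆ insert x (Ko D U x) := by
  intro y hy
  obtain ⟨z, hz, hzy⟩ := mem_rho.1 hy
  rw [mem_insert]
  by_cases hyx : y = x
  · exact Or.inl hyx
  right
  rw [mem_Ko]
  intro a ha
  refine ⟨mem_rho.2 ⟨z, mem_II.1 hz a ha, hzy⟩, ?_⟩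
  rintro rfl
  -- `y ∈ N⁻(x)`
  have hyx' : D.arc y x := by
    rcases ha with h | h
    · exact absurd h.symm hyx
    · exact h
  rcases hzy with h | h
  · subst h
    exact hO.far x y hyx' (mem_II.1 hz x (adj_refl x))
  · exact hO.far y z h (mem_II.1 hz y ha)

theorem card_sdiff_Ko (D : OGraph V) {B U : V → Finset V} (hO : Outer D B U) (x : V)
    {M : Finset V} (hM : M ⊆ rho D (II D U x)) :
    ((Ko D U x \ M).card : ℤ) ≤ (Ko D U x).card + 1 - M.card := by
  have h1 : (Ko D U x \ M).card + M.card = (Ko D U x ∪ M).card := card_sdiff_add_card _ _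
  have h2 : (Ko D U x ∪ M).card ≤ (insert x (Ko D U x)).card := by
    apply card_le_card
    exact union_subset (subset_insert _ _) (hM.trans (rho_II_subset D hO x))
  have h3 := card_insert_le x (Ko D U x)
  omega

open Classical in
/-- **Row 5.** -/
theorem count (D : OGraph V) (B U X : V → Finset V) (hO : Outer D B U)
    (h1 : ∀ a Z, (∀ b, Adj D a b → b ∈ Z) → Z ⊆ U a → cc D (B a) ≤ cc D Z)
    (h3 : ∀ (y : V) (T : Finset V), (∀ a ∈ T, y ∈ rho D (U a) ∧ y ∉ rho D (B a)) →
      T.card ≤ (univ.filter fun x => y ∈ Ko D U x ∧ ∃ a ∈ T, Adj D a x).card)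
    (hX : ∀ x, x ∈ X x ∧ X x ⊆ II D U x ∧
      ∀ Z, x ∈ Z → Z ⊆ II D U x → cc D (X x) ≤ cc D Z) :
    ∑ x, (cc D (X x) + ((rho D (U x)).card : ℤ) - 1 - ((Ko D U x).card : ℤ)) ≤ Phi D B U := by
  obtain ⟨M, hM1, hM2⟩ := greedy D
  set nb : V → Finset V := fun a => univ.filter fun b => Adj D a b with hnb
  have hnbB : ∀ a, nb a ⊆ B a := fun a b hb => hO.nb a b (mem_filter.1 hb).2
  have hnbU : ∀ a, nb a ⊆ U a := fun a => (hnbB a).trans (hO.sub a)
  have A : ∀ a, ((M (nb a) (U a)).card : ℤ) = (U a).card + cc D (B a) ∧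
      M (nb a) (U a) ⊆ rho D (U a) ∧ rho D (B a) ⊆ M (nb a) (U a) := fun a =>
    hM1 _ _ _ (hnbB a) (hO.sub a) (fun Z hZ hZU => h1 a Z (fun b hb => hZ
      (mem_filter.2 ⟨mem_univ _, hb⟩)) hZU)
  have C : ∀ x, ((M {x} (II D U x)).card : ℤ) = (II D U x).card + cc D (X x) ∧
      M {x} (II D U x) ⊆ rho D (II D U x) ∧ rho D (X x) ⊆ M {x} (II D U x) := fun x =>
    hM1 _ _ _ (singleton_subset_iff.2 (hX x).1) (hX x).2.1
      (fun Z hZ hZI => (hX x).2.2 Z (singleton_subset_iff.1 hZ) hZI)
  have hmono : ∀ a x, Adj D a x → M {x} (II D U x) ⊆ M (nb a) (U a) := by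
    intro a x hax
    refine hM2 _ _ _ _ ?_ (hnbU a) ?_ ?_
    · exact singleton_subset_iff.2 ((hX x).2.1 (hX x).1)
    · exact singleton_subset_iff.2 (mem_filter.2 ⟨mem_univ _, hax⟩)
    · intro b hb
      exact mem_II.1 hb a hax
  -- the double count
  have key : ∑ a, (rho D (U a) \ M (nb a) (U a)).card
      ≤ ∑ x, (Ko D U x \ M {x} (II D U x)).card := by
    have s1 : ∑ a, (rho D (U a) \ M (nb a) (U a)).card
        = ∑ y, (univ.filter fun a => y ∈ rho D (U a) \ M (nb a) (U a)).card := by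
      have : ∀ a, (rho D (U a) \ M (nb a) (U a)).card
          = ∑ y, if y ∈ rho D (U a) \ M (nb a) (U a) then 1 else 0 := by
        intro a
        rw [← card_filter]
        congr 1
        ext y
        simp
      simp_rw [this]
      rw [Finset.sum_comm]
      refine Finset.sum_congr rfl fun y _ => ?_
      rw [card_filter]
    have s2 : ∀ y, (univ.filter fun a => y ∈ rho D (U a) \ M (nb a) (U a)).card
        ≤ (univ.filter fun x => y ∈ Ko D U x \ M {x} (II D U x)).card := by
      intro y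
      refine (h3 y _ (fun a ha => ?_)).trans (card_le_card ?_)
      · have h := mem_sdiff.1 (mem_filter.1 ha).2
        exact ⟨h.1, fun hB => h.2 ((A a).2.2 hB)⟩
      · intro x hx
        rw [mem_filter] at hx ⊢
        obtain ⟨_, hK, a, ha, hax⟩ := hx
        refine ⟨mem_univ _, mem_sdiff.2 ⟨hK, fun hM => ?_⟩⟩
        exact (mem_sdiff.1 (mem_filter.1 ha).2).2 (hmono a x hax hM)
    have s3 : ∑ x, (Ko D U x \ M {x} (II D U x)).card
        = ∑ y, (univ.filter fun x => y ∈ Ko D U x \ M {x} (II D U x)).card := by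
      have : ∀ x, (Ko D U x \ M {x} (II D U x)).card
          = ∑ y, if y ∈ Ko D U x \ M {x} (II D U x) then 1 else 0 := by
        intro x
        rw [← card_filter]
        congr 1
        ext y
        simp
      simp_rw [this]
      rw [Finset.sum_comm]
      refine Finset.sum_congr rfl fun y _ => ?_
      rw [card_filter]
    rw [s1, s3]
    exact Finset.sum_le_sum fun y _ => s2 y
  have key' : ∑ a, ((rho D (U a) \ M (nb a) (U a)).card : ℤ)
      ≤ ∑ x, ((Ko D U x \ M {x} (II D U x)).card : ℤ) := by exact_mod_cast key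
  have L : ∑ a, (((rho D (U a)).card : ℤ) - (U a).card - cc D (B a))
      = ∑ a, ((rho D (U a) \ M (nb a) (U a)).card : ℤ) := by
    refine Finset.sum_congr rfl fun a _ => ?_
    have e := card_sdiff_add_card_eq_card (A a).2.1
    have e2 := (A a).1
    omega
  have R : ∑ x, ((Ko D U x \ M {x} (II D U x)).card : ℤ)
      ≤ ∑ x, (((Ko D U x).card : ℤ) + 1 - (II D U x).card - cc D (X x)) := by
    refine Finset.sum_le_sum fun x _ => ?_
    have e := card_sdiff_Ko D hO x (C x).2.1
    have e2 := (C x).1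
    linarith
  have fin : ∑ x, (cc D (X x) + ((rho D (U x)).card : ℤ) - 1 - ((Ko D U x).card : ℤ))
      - Phi D B U = ∑ a, (((rho D (U a)).card : ℤ) - (U a).card - cc D (B a))
        - ∑ x, (((Ko D U x).card : ℤ) + 1 - (II D U x).card - cc D (X x)) := by
    unfold Phi
    rw [← Finset.sum_sub_distrib, ← Finset.sum_sub_distrib]
    refine Finset.sum_congr rfl fun a _ => ?_
    ring
  linarith

end Vale.Agent.P038.H183
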