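import Vale.Agent.P038.Defs
import Mathlib

/-!
# P038, helper183: definitions for the proof of Seymour's conjecture (note 23183)
-/

namespace Vale.Agent.P038.H183

open Finset

variable {V : Type*}

/-- Closed arcs: `b ∈ N[a]`. -/
def Adj (D : OGraph V) (a b : V) : Prop := b = a ∨ D.arc a b

variable [Fintype V]

open Classical in
/-- The closed out-neighbourhood `N[Z]` of a set. -/
noncomputable def rho (D : OGraph V) (Z : Finset V) : Finset V :=
  univ.filter fun y => ∃ z ∈ Z, Adj D z y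

/-- `c(Z) = |N[Z]| - |Z|`, the number of out-neighbours of `Z` outside `Z`. -/
noncomputable def cc (D : OGraph V) (Z : Finset V) : ℤ := ((rho D Z).card : ℤ) - (Z.card : ℤ)

/-- (G): every set with an outer boundary has a smaller second boundary. -/
def GG (D : OGraph V) : Prop := ∀ Z : Finset V, rho D Z ≠ Z → cc D (rho D Z) < cc D Z

open Classical in
/-- `I_x`: the intersection of the `U_a`, `a ∈ N⁻[x]`. -/
noncomputable def II (D : OGraph V) (U : V → Finset V) (x : V) : Finset V :=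
  univ.filter fun b => ∀ a, Adj D a x → b ∈ U a

/-- Outer pairs. -/
structure Outer (D : OGraph V) (B U : V → Finset V) : Prop where
  nb : ∀ a b, Adj D a b → b ∈ B a
  sub : ∀ a, B a ⊆ U a
  far : ∀ a b, D.arc b a → b ∉ U a

/-- The cost of an outer pair. -/
noncomputable def Phi (D : OGraph V) (B U : V → Finset V) : ℤ :=
  ∑ a, (cc D (B a) + ((U a).card : ℤ) - ((II D U a).card : ℤ))

open Classical in
/-- `K°_x`. -/
noncomputable def Ko (D : OGraph V) (U : V → Finset V) (x : V) : Finset V :=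
  univ.filter fun y => ∀ a, Adj D a x → y ∈ rho D (U a) ∧ y ≠ a

/-! ## Basic lemmas -/

variable {D : OGraph V}

theorem mem_rho {Z : Finset V} {y : V} : y ∈ rho D Z ↔ ∃ z ∈ Z, Adj D z y := by
  classical
  simp [rho]

theorem mem_II {U : V → Finset V} {x b : V} : b ∈ II D U x ↔ ∀ a, Adj D a x → b ∈ U a := by
  classical
  simp [II]

theorem mem_Ko {U : V → Finset V} {x y : V} :
    y ∈ Ko D U x ↔ ∀ a, Adj D a x → y ∈ rho D (U a) ∧ y ≠ a := by
  classical
  simp [Ko]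

omit [Fintype V] in
theorem adj_refl (a : V) : Adj D a a := Or.inl rfl

theorem subset_rho (Z : Finset V) : Z ⊆ rho D Z := fun z hz => mem_rho.2 ⟨z, hz, adj_refl z⟩

theorem rho_mono {Z Z' : Finset V} (h : Z ⊆ Z') : rho D Z ⊆ rho D Z' := by
  intro y hy
  obtain ⟨z, hz, h1⟩ := mem_rho.1 hy
  exact mem_rho.2 ⟨z, h hz, h1⟩

/-! ## The five rows (statements) -/

/-- Row 1 (G for arc-minimal counterexamples): if there is a counterexample on `V`, there is one
with (G). -/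
def GStmt : Prop := ∀ (V : Type) [Fintype V] (D : OGraph V),
  (∀ v, (N2 D v).card < (N1 D v).card) →
    ∃ D' : OGraph V, (∀ v, (N2 D' v).card < (N1 D' v).card) ∧ GG D'

/-- Row 2 (greedy basis lemma). -/
def GreedyStmt : Prop := ∀ (V : Type) [Fintype V] (D : OGraph V),
  ∃ M : Finset V → Finset V → Finset V,
    (∀ S I B : Finset V, S ⊆ B → B ⊆ I → (∀ Z, S ⊆ Z → Z ⊆ I → cc D B ≤ cc D Z) →
      ((M S I).card : ℤ) = I.card + cc D B ∧ M S I ⊆ rho D I ∧ rho D B ⊆ M S I) ∧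
    (∀ S I S' I' : Finset V, S ⊆ I → S' ⊆ I' → S ⊆ S' → I ⊆ I' → M S I ⊆ M S' I')

open Classical in
/-- Row 3 (columns): step (2) implies step (3). -/
def ColStmt : Prop := ∀ (V : Type) [Fintype V] (D : OGraph V) (B U : V → Finset V),
  Outer D B U →
  (∀ (b : V) (T : Finset V), (∀ a ∈ T, b ∈ U a ∧ b ∉ B a) →
    T.card ≤ (univ.filter fun x => b ∈ II D U x ∧ ∃ a ∈ T, Adj D a x).card) →
  ∀ (y : V) (T : Finset V), (∀ a ∈ T, y ∈ rho D (U a) ∧ y ∉ rho D (B a)) →
    T.card ≤ (univ.filter fun x => y ∈ Ko D U x ∧ ∃ a ∈ T, Adj D a x).card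

open Classical in
/-- Row 4 (the minimal outer pair): existence, row optimality (1), column optimality (2). -/
def MinStmt : Prop := ∀ (V : Type) [Fintype V] (D : OGraph V),
  ∃ B U : V → Finset V, Outer D B U ∧ (∀ B' U', Outer D B' U' → Phi D B U ≤ Phi D B' U') ∧
    (∀ a Z, (∀ b, Adj D a b → b ∈ Z) → Z ⊆ U a → cc D (B a) ≤ cc D Z) ∧
    (∀ (b : V) (T : Finset V), (∀ a ∈ T, b ∈ U a ∧ b ∉ B a) →
      T.card ≤ (univ.filter fun x => b ∈ II D U x ∧ ∃ a ∈ T, Adj D a x).card)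

open Classical in
/-- Row 5 (steps (5), (6)): the counting. `X x` attains `k_x`. -/
def CountStmt : Prop := ∀ (V : Type) [Fintype V] (D : OGraph V) (B U X : V → Finset V),
  Outer D B U →
  (∀ a Z, (∀ b, Adj D a b → b ∈ Z) → Z ⊆ U a → cc D (B a) ≤ cc D Z) →
  (∀ (y : V) (T : Finset V), (∀ a ∈ T, y ∈ rho D (U a) ∧ y ∉ rho D (B a)) →
    T.card ≤ (univ.filter fun x => y ∈ Ko D U x ∧ ∃ a ∈ T, Adj D a x).card) →
  (∀ x, x ∈ X x ∧ X x ⊆ II D U x ∧ ∀ Z, x ∈ Z → Z ⊆ II D U x → cc D (X x) ≤ cc D Z) →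
  ∑ x, (cc D (X x) + ((rho D (U x)).card : ℤ) - 1 - ((Ko D U x).card : ℤ)) ≤ Phi D B U

/-- Row 6 (step (7)): the new outer pair. -/
def StepStmt : Prop := ∀ (V : Type) [Fintype V] [Nonempty V] (D : OGraph V)
  (B U X : V → Finset V), GG D → (∀ v, ∃ u, D.arc v u) → Outer D B U →
  (∀ x, x ∈ X x ∧ X x ⊆ II D U x) →
  ∃ B' U' : V → Finset V, Outer D B' U' ∧
    Phi D B' U' < ∑ x, (cc D (X x) + ((rho D (U x)).card : ℤ) - 1 - ((Ko D U x).card : ℤ))

end Vale.Agent.P038.H183
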