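import Vale.Agent.P038.H183.Defs

/-!
# P038: the minimal outer pair (row 4 of note 23183)
-/

namespace Vale.Agent.P038.H183

open Finset

variable {V : Type*} [Fintype V]

open Classical in
theorem outer_exists (D : OGraph V) :
    Outer D (fun a => univ.filter fun b => Adj D a b) (fun a => univ.filter fun b => Adj D a b) := by
  refine ⟨fun a b h => mem_filter.2 ⟨mem_univ _, h⟩, fun a => Subset.refl _, ?_⟩
  intro a b h hb
  rcases (mem_filter.1 hb).2 with h1 | h1
  · subst h1; exact D.loopless _ h
  · exact D.asymm _ _ h h1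

theorem exists_min (D : OGraph V) :
    ∃ B U : V → Finset V, Outer D B U ∧ ∀ B' U', Outer D B' U' → Phi D B U ≤ Phi D B' U' := by
  classical
  let α := {p : (V → Finset V) × (V → Finset V) // Outer D p.1 p.2}
  have : Nonempty α := ⟨⟨(_, _), outer_exists D⟩⟩
  have : Finite α := inferInstance
  obtain ⟨p, hp⟩ := Finite.exists_min (fun p : α => Phi D p.1.1 p.1.2)
  exact ⟨p.1.1, p.1.2, p.2, fun B' U' h => hp ⟨(B', U'), h⟩⟩

theorem row_opt (D : OGraph V) {B U : V → Finset V} (hO : Outer D B U)
    (hm : ∀ B' U', Outer D B' U' → Phi D B U ≤ Phi D B' U') (a : V) (Z : Finset V)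
    (hZ : ∀ b, Adj D a b → b ∈ Z) (hZU : Z ⊆ U a) : cc D (B a) ≤ cc D Z := by
  classical
  have hO' : Outer D (Function.update B a Z) U := by
    refine ⟨?_, ?_, hO.far⟩
    · intro a' b h
      by_cases ha : a' = a
      · subst ha; rw [Function.update_self]; exact hZ b h
      · rw [Function.update_of_ne ha]; exact hO.nb a' b h
    · intro a'
      by_cases ha : a' = a
      · subst ha; rw [Function.update_self]; exact hZU
      · rw [Function.update_of_ne ha]; exact hO.sub a'
  have h := hm _ _ hO'
  have e : Phi D (Function.update B a Z) U - Phi D B U = cc D Z - cc D (B a) := by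
    unfold Phi
    rw [← Finset.sum_sub_distrib]
    rw [Finset.sum_eq_single a]
    · rw [Function.update_self]; ring
    · intro a' _ ha
      rw [Function.update_of_ne ha]; ring
    · intro h; exact absurd (mem_univ _) h
  linarith

open Classical in
theorem col_opt (D : OGraph V) {B U : V → Finset V} (hO : Outer D B U)
    (hm : ∀ B' U', Outer D B' U' → Phi D B U ≤ Phi D B' U') (b : V) (T : Finset V)
    (hT : ∀ a ∈ T, b ∈ U a ∧ b ∉ B a) :
    T.card ≤ (univ.filter fun x => b ∈ II D U x ∧ ∃ a ∈ T, Adj D a x).card := by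
  set U' : V → Finset V := fun a => if a ∈ T then (U a).erase b else U a with hU'
  have hsub : ∀ a, U' a ⊆ U a := by
    intro a
    simp only [hU']
    split_ifs
    · exact erase_subset _ _
    · exact Subset.refl _
  have hO' : Outer D B U' := by
    refine ⟨hO.nb, ?_, fun a c h hc => hO.far a c h (hsub a hc)⟩
    intro a c hc
    simp only [hU']
    split_ifs with h
    · refine mem_erase.2 ⟨?_, hO.sub a hc⟩
      rintro rfl
      exact (hT a h).2 hc
    · exact hO.sub a hc
  have h := hm _ _ hO'
  have e : Phi D B U' - Phi D B U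
      = ∑ a, (((U' a).card : ℤ) - (U a).card) + ∑ a, (((II D U a).card : ℤ) - (II D U' a).card) := by
    unfold Phi
    rw [← Finset.sum_sub_distrib, ← Finset.sum_add_distrib]
    refine Finset.sum_congr rfl fun a _ => ?_
    ring
  have e1 : ∑ a, (((U' a).card : ℤ) - (U a).card) = - (T.card : ℤ) := by
    have : ∀ a, (((U' a).card : ℤ) - (U a).card) = if a ∈ T then -1 else 0 := by
      intro a
      simp only [hU']
      split_ifs with ha
      · have h1 := card_erase_of_mem (hT a ha).1
        have h2 : 0 < (U a).card := card_pos.2 ⟨b, (hT a ha).1⟩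
        omega
      · simp
    simp_rw [this]
    simp
  have e2 : ∑ a, (((II D U a).card : ℤ) - (II D U' a).card)
      ≤ ((univ.filter fun x => b ∈ II D U x ∧ ∃ a ∈ T, Adj D a x).card : ℤ) := by
    rw [card_filter]
    push_cast
    refine Finset.sum_le_sum fun x _ => ?_
    split_ifs with hx
    · have h1 : (II D U x).erase b ⊆ II D U' x := by
        intro c hc
        rw [mem_erase] at hc
        rw [mem_II]
        intro a ha
        simp only [hU']
        split_ifs
        · exact mem_erase.2 ⟨hc.1, mem_II.1 hc.2 a ha⟩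
        · exact mem_II.1 hc.2 a ha
      have h2 := card_le_card h1
      have h3 := card_erase_of_mem hx.1
      omega
    · have h1 : II D U x ⊆ II D U' x := by
        intro c hc
        rw [mem_II]
        intro a ha
        simp only [hU']
        split_ifs with haT
        · refine mem_erase.2 ⟨?_, mem_II.1 hc a ha⟩
          rintro rfl
          exact hx ⟨hc, a, haT, ha⟩
        · exact mem_II.1 hc a ha
      have h2 := card_le_card h1
      omega
  have : (T.card : ℤ) ≤ ((univ.filter fun x => b ∈ II D U x ∧ ∃ a ∈ T, Adj D a x).card : ℤ) := by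
    linarith
  exact_mod_cast this

open Classical in
/-- **Row 4.** -/
theorem min_pair (D : OGraph V) :
    ∃ B U : V → Finset V, Outer D B U ∧ (∀ B' U', Outer D B' U' → Phi D B U ≤ Phi D B' U') ∧
    (∀ a Z, (∀ b, Adj D a b → b ∈ Z) → Z ⊆ U a → cc D (B a) ≤ cc D Z) ∧
    (∀ (b : V) (T : Finset V), (∀ a ∈ T, b ∈ U a ∧ b ∉ B a) →
      T.card ≤ (univ.filter fun x => b ∈ II D U x ∧ ∃ a ∈ T, Adj D a x).card) := by
  obtain ⟨B, U, hO, hm⟩ := exists_min D
  exact ⟨B, U, hO, hm, fun a Z => row_opt D hO hm a Z, fun b T => col_opt D hO hm b T⟩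

end Vale.Agent.P038.H183
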