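import Vale.Agent.P038.H183.Count

/-!
# P038: the new outer pair (row 6 of note 23183)
-/

namespace Vale.Agent.P038.H183

open Finset

variable {V : Type*} [Fintype V] [DecidableEq V]

theorem cc_eq (D : OGraph V) (Z : Finset V) : cc D Z = ((rho D Z \ Z).card : ℤ) := by
  have e := card_sdiff_add_card_eq_card (subset_rho (D := D) Z)
  unfold cc
  omega

theorem cc_nonneg (D : OGraph V) (Z : Finset V) : 0 ≤ cc D Z := by
  rw [cc_eq]; exact Int.natCast_nonneg _

theorem GG_le {D : OGraph V} (hG : GG D) (Z : Finset V) : cc D (rho D Z) ≤ cc D Z := by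
  by_cases h : rho D Z = Z
  · rw [h]
  · exact (hG Z h).le

theorem double_count (E F : V → Finset V) (h : ∀ x b, b ∈ E x → x ∈ F b) :
    ∑ x, (E x).card ≤ ∑ b, (F b).card := by
  have h1 : ∀ x, (E x).card = ∑ b, if b ∈ E x then 1 else 0 := by
    intro x
    rw [← card_filter]
    congr 1
    ext y
    simp
  have h2 : ∀ b, (F b).card = ∑ x, if x ∈ F b then 1 else 0 := by
    intro x
    rw [← card_filter]
    congr 1
    ext y
    simp
  simp_rw [h1, h2]
  rw [Finset.sum_comm]
  refine Finset.sum_le_sum fun b _ => Finset.sum_le_sum fun x _ => ?_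
  split_ifs with h3 h4
  · exact le_refl _
  · exact absurd (h x b h3) h4
  · exact Nat.zero_le _
  · exact le_refl _

theorem exists_closed [Nonempty V] (D : OGraph V) :
    ∃ Z : Finset V, Z.Nonempty ∧ rho D Z = Z ∧
      ∀ Z' : Finset V, Z' ⊆ Z → Z'.Nonempty → rho D Z' = Z' → Z' = Z := by
  classical
  obtain ⟨Z, hZ, hmin⟩ := Finset.exists_min_image
    (univ.filter fun Z : Finset V => Z.Nonempty ∧ rho D Z = Z) (fun Z => Z.card)
    ⟨univ, mem_filter.2 ⟨mem_univ _, univ_nonempty, by
      apply subset_antisymm (subset_univ _) (subset_rho _)⟩⟩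
  rw [mem_filter] at hZ
  refine ⟨Z, hZ.2.1, hZ.2.2, fun Z' h1 h2 h3 => ?_⟩
  exact eq_of_subset_of_card_le h1 (hmin Z' (mem_filter.2 ⟨mem_univ _, h2, h3⟩))

open Classical in
/-- **Row 6.** -/
theorem step [Nonempty V] (D : OGraph V) (B U X : V → Finset V) (hG : GG D)
    (hd : ∀ v, ∃ u, D.arc v u) (hO : Outer D B U) (hX : ∀ x, x ∈ X x ∧ X x ⊆ II D U x) :
    ∃ B' U' : V → Finset V, Outer D B' U' ∧
    Phi D B' U' < ∑ x, (cc D (X x) + ((rho D (U x)).card : ℤ) - 1 - ((Ko D U x).card : ℤ)) := by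
  have hsub : ∀ a, rho D (X a) ⊆ insert a (Ko D U a) := fun a =>
    (rho_mono (hX a).2).trans (rho_II_subset D hO a)
  set U' : V → Finset V := fun a => insert a (Ko D U a) with hU'
  have hO' : Outer D (fun a => rho D (X a)) U' := by
    refine ⟨fun a b h => mem_rho.2 ⟨a, (hX a).1, h⟩, hsub, ?_⟩
    intro a b h hb
    simp only [hU', mem_insert] at hb
    rcases hb with hb | hb
    · subst hb; exact D.loopless _ h
    · exact (mem_Ko.1 hb b (Or.inr h)).2 rfl
  refine ⟨fun a => rho D (X a), U', hO', ?_⟩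
  set Y : V → Finset V := fun b => univ.filter fun a => ¬ (b ∈ rho D (U a) ∧ b ≠ a) with hY
  have memY : ∀ a b, a ∈ Y b ↔ ¬ (b ∈ rho D (U a) ∧ b ≠ a) := by
    intro a b; simp [hY]
  -- (i) the inner cost
  have I1 : ∑ b, cc D (Y b) ≤ ∑ x, (((rho D (U x)).card : ℤ) - 1 - ((Ko D U x).card : ℤ)) := by
    have e1 : ∀ x, (((rho D (U x)).card : ℤ) - 1 - ((Ko D U x).card : ℤ))
        = (((rho D (U x)).erase x \ Ko D U x).card : ℤ) := by
      intro x
      have hx : x ∈ rho D (U x) := subset_rho _ (hO.sub x (hO.nb x x (adj_refl x)))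
      have hK : Ko D U x ⊆ (rho D (U x)).erase x := by
        intro b hb
        have := mem_Ko.1 hb x (adj_refl x)
        exact mem_erase.2 ⟨this.2, this.1⟩
      have h1 := card_sdiff_add_card_eq_card hK
      have h2 := card_erase_add_one hx
      omega
    simp_rw [e1, cc_eq]
    have := double_count (fun b => rho D (Y b) \ Y b)
      (fun x => (rho D (U x)).erase x \ Ko D U x) (by
        intro b x hx
        rw [mem_sdiff] at hx
        obtain ⟨h1, h2⟩ := hx
        rw [memY, not_not] at h2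
        obtain ⟨a, ha, hax⟩ := mem_rho.1 h1
        rw [memY] at ha
        refine mem_sdiff.2 ⟨mem_erase.2 ⟨h2.2, h2.1⟩, fun hK => ha (mem_Ko.1 hK a hax)⟩)
    exact_mod_cast this
  -- (ii) the outer cost
  have I2 : ∑ x, (((U' x).card : ℤ) - ((II D U' x).card : ℤ)) ≤ ∑ b, cc D (rho D (Y b)) := by
    have e1 : ∀ x, (((U' x).card : ℤ) - ((II D U' x).card : ℤ))
        = ((U' x \ II D U' x).card : ℤ) := by
      intro x
      have hK : II D U' x ⊆ U' x := fun b hb => mem_II.1 hb x (adj_refl x)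
      have h1 := card_sdiff_add_card_eq_card hK
      omega
    simp_rw [e1, cc_eq]
    have := double_count (fun x => U' x \ II D U' x)
      (fun b => rho D (rho D (Y b)) \ rho D (Y b)) (by
        intro x b hb
        rw [mem_sdiff] at hb
        obtain ⟨h1, h2⟩ := hb
        rw [mem_II] at h2
        push Not at h2
        obtain ⟨a, hax, ha⟩ := h2
        simp only [hU', mem_insert, not_or] at ha
        obtain ⟨hba, hK⟩ := ha
        rw [mem_Ko] at hK
        push Not at hK
        obtain ⟨a', ha'a, ha'⟩ := hK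
        have hY' : a' ∈ Y b := by
          rw [memY]
          rintro ⟨k1, k2⟩
          exact k2 (ha' k1)
        have hrY : a ∈ rho D (Y b) := mem_rho.2 ⟨a', hY', ha'a⟩
        refine mem_sdiff.2 ⟨mem_rho.2 ⟨a, hrY, hax⟩, fun hxY => ?_⟩
        obtain ⟨a'', ha'', hax''⟩ := mem_rho.1 hxY
        simp only [hU', mem_insert] at h1
        rcases h1 with h1 | h1
        · subst h1
          -- `b = x`, `a → b`
          have harc : Adj D a b := hax
          have hmem : b ∈ rho D (X a) := mem_rho.2 ⟨a, (hX a).1, harc⟩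
          rcases mem_insert.1 (hsub a hmem) with h | h
          · exact hba h
          · have := mem_Ko.1 h a' ha'a
            exact this.2 (ha' this.1)
        · rw [memY] at ha''
          exact ha'' (mem_Ko.1 h1 a'' hax''))
    exact_mod_cast this
  -- strictness
  have S : (∃ a, rho D (X a) ≠ X a) ∨ (∃ b, rho D (Y b) ≠ Y b) := by
    by_contra hn
    push Not at hn
    obtain ⟨hn1, hn2⟩ := hn
    obtain ⟨Z, ⟨v, hv⟩, hZ, hmin⟩ := exists_closed D
    have sub1 : ∀ W : Finset V, rho D W = W → ∀ a ∈ Z, a ∈ W → Z ⊆ W := by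
      intro W hW a haZ haW
      have : Z ∩ W = Z := by
        refine hmin (Z ∩ W) inter_subset_left ⟨a, mem_inter.2 ⟨haZ, haW⟩⟩ ?_
        refine subset_antisymm ?_ (subset_rho _)
        refine (rho_inter D Z W).trans ?_
        rw [hZ, hW]
      rw [← this]
      exact inter_subset_right
    obtain ⟨u, hu⟩ := hd v
    have huZ : u ∈ Z := by
      rw [← hZ]
      exact mem_rho.2 ⟨v, hv, Or.inr hu⟩
    have huv : u ≠ v := by
      rintro rfl
      exact D.loopless _ hu
    have h2 : v ∈ Y u := by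
      refine sub1 (Y u) (hn2 u) u huZ ?_ hv
      rw [memY]
      rintro ⟨_, h⟩
      exact h rfl
    rw [memY] at h2
    have h1 : u ∈ rho D (X v) := mem_rho.2 ⟨v, (hX v).1, Or.inr hu⟩
    rcases mem_insert.1 (hsub v h1) with h | h
    · exact huv h
    · exact h2 (mem_Ko.1 h v (adj_refl v))
  have T1 : ∑ a, cc D (rho D (X a)) ≤ ∑ a, cc D (X a) :=
    Finset.sum_le_sum fun a _ => GG_le hG _
  have T2 : ∑ a, cc D (rho D (Y a)) ≤ ∑ a, cc D (Y a) :=
    Finset.sum_le_sum fun a _ => GG_le hG _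
  have P1 : Phi D (fun a => rho D (X a)) U' = ∑ a, cc D (rho D (X a))
      + ∑ x, (((U' x).card : ℤ) - ((II D U' x).card : ℤ)) := by
    unfold Phi
    rw [← Finset.sum_add_distrib]
    refine Finset.sum_congr rfl fun a _ => ?_
    ring
  have P2 : ∑ x, (cc D (X x) + ((rho D (U x)).card : ℤ) - 1 - ((Ko D U x).card : ℤ))
      = ∑ x, cc D (X x) + ∑ x, (((rho D (U x)).card : ℤ) - 1 - ((Ko D U x).card : ℤ)) := by
    rw [← Finset.sum_add_distrib]
    refine Finset.sum_congr rfl fun a _ => ?_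
    ring
  have T3 : ∑ a, cc D (rho D (X a)) + ∑ a, cc D (rho D (Y a))
      < ∑ a, cc D (X a) + ∑ a, cc D (Y a) := by
    rcases S with ⟨a, ha⟩ | ⟨b, hb⟩
    · have : ∑ a, cc D (rho D (X a)) < ∑ a, cc D (X a) :=
        Finset.sum_lt_sum (fun a _ => GG_le hG _) ⟨a, mem_univ _, hG _ ha⟩
      linarith
    · have : ∑ a, cc D (rho D (Y a)) < ∑ a, cc D (Y a) :=
        Finset.sum_lt_sum (fun a _ => GG_le hG _) ⟨b, mem_univ _, hG _ hb⟩
      linarith
  linarith

end Vale.Agent.P038.H183
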