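import Vale.Agent.P038.H183.GHall
import Vale.Agent.P038.H183.Col
import Vale.Agent.P038.H183.Min
import Vale.Agent.P038.H183.Step

/-!
# P038: Seymour's second neighbourhood conjecture
-/

namespace Vale.Agent.P038.H183

open Finset

universe u

theorem no_GG {V : Type u} [Fintype V] [Nonempty V] (D : OGraph V)
    (hd : ∀ v, ∃ u, D.arc v u) : ¬ GG D := by
  classical
  intro hG
  obtain ⟨B, U, hO, hm, h1, h2⟩ := min_pair D
  have h3 := col D B U hO h2
  have hX : ∀ x, ∃ Z : Finset V, x ∈ Z ∧ Z ⊆ II D U x ∧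
      ∀ Z', x ∈ Z' → Z' ⊆ II D U x → cc D Z ≤ cc D Z' := by
    intro x
    have hx : x ∈ II D U x := by
      rw [mem_II]
      intro a ha
      exact hO.sub a (hO.nb a x ha)
    obtain ⟨Z, hZ, hZmin⟩ := Finset.exists_min_image
      ((II D U x).powerset.filter fun Z => x ∈ Z) (fun Z => cc D Z)
      ⟨II D U x, mem_filter.2 ⟨mem_powerset.2 (Subset.refl _), hx⟩⟩
    rw [mem_filter, mem_powerset] at hZ
    exact ⟨Z, hZ.2, hZ.1, fun Z' h h' => hZmin Z' (mem_filter.2 ⟨mem_powerset.2 h', h⟩)⟩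
  choose X hX using hX
  have h5 := count D B U X hO h1 h3 hX
  obtain ⟨B', U', hO', hlt⟩ := step D B U X hG hd hO (fun x => ⟨(hX x).1, (hX x).2.1⟩)
  have := hm B' U' hO'
  linarith

/-- **Seymour's second neighbourhood conjecture.** -/
theorem seymour {V : Type u} [Fintype V] [Nonempty V] (D : OGraph V) :
    ∃ v, (N1 D v).card ≤ (N2 D v).card := by
  by_contra hcon
  push Not at hcon
  obtain ⟨D', hCE, hG⟩ := exists_GG D hcon
  refine no_GG D' (fun v => ?_) hG
  have h : 0 < (N1 D' v).card := (Nat.zero_le _).trans_lt (hCE v)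
  obtain ⟨u, hu⟩ := card_pos.1 h
  exact ⟨u, mem_N1.1 hu⟩

end Vale.Agent.P038.H183
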