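import Vale.Agent.P038.H183.Greedy

/-!
# P038: (G) for arc-minimal counterexamples (row 1 of note 23183; helper294's theorem for the
counting measure)
-/

namespace Vale.Agent.P038.H183

open Finset

variable {V : Type*} [Fintype V]

/-- Counterexamples. -/
def CE (D : OGraph V) : Prop := ∀ v, (N2 D v).card < (N1 D v).card

/-- The number of arcs. -/
noncomputable def arcs (D : OGraph V) : ℕ := ∑ v, (N1 D v).card

/-- Delete all arcs from `X` to the outside of `X ∪ T`. -/
def del (D : OGraph V) (X T : Finset V) : OGraph V where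
  arc u v := D.arc u v ∧ (u ∈ X → v ∈ X ∨ v ∈ T)
  loopless v h := D.loopless v h.1
  asymm u v h h' := D.asymm u v h.1 h'.1

theorem exists_arc_min (D : OGraph V) (hD : CE D) :
    ∃ D' : OGraph V, CE D' ∧ ∀ D'' : OGraph V, CE D'' → arcs D' ≤ arcs D'' := by
  classical
  have h : ∃ n, ∃ D' : OGraph V, CE D' ∧ arcs D' = n := ⟨_, D, hD, rfl⟩
  obtain ⟨D', h1, h2⟩ := Nat.find_spec h
  refine ⟨D', h1, fun D'' h3 => ?_⟩
  rw [h2]
  exact Nat.find_min' h ⟨D'', h3, rfl⟩

variable [DecidableEq V]

/-- The Hall defect. -/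
noncomputable def dd (D : OGraph V) (X T : Finset V) : ℤ :=
  ((rho D T \ X).card : ℤ) - 2 * T.card

theorem cc_diff (D : OGraph V) (X : Finset V) :
    cc D (rho D X) - cc D X = dd D X (rho D X \ X) := by
  have hX := subset_rho (D := D) X
  have e1 := card_sdiff_add_card_eq_card hX
  have hu : rho D X = X ∪ (rho D X \ X) := by
    rw [union_sdiff_of_subset hX]
  have e2 : rho D (rho D X) \ X = rho D (rho D X \ X) \ X := by
    ext y
    simp only [mem_sdiff]
    constructor
    · rintro ⟨h1, h2⟩
      refine ⟨?_, h2⟩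
      rw [hu, rho_union, mem_union] at h1
      rcases h1 with h1 | h1
      · exact subset_rho _ (mem_sdiff.2 ⟨h1, h2⟩)
      · exact h1
    · rintro ⟨h1, h2⟩
      exact ⟨rho_mono sdiff_subset h1, h2⟩
  have e3 := card_sdiff_add_card_eq_card (hX.trans (subset_rho (D := D) (rho D X)))
  rw [e2] at e3
  unfold cc dd
  omega

theorem dd_union (D : OGraph V) (X T S : Finset V) (h : Disjoint T S) :
    dd D X (T ∪ S) = dd D X T + ((rho D S \ (rho D T ∪ X)).card : ℤ) - 2 * S.card := by
  have e1 : rho D (T ∪ S) \ X = (rho D T \ X) ∪ (rho D S \ (rho D T ∪ X)) := by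
    rw [rho_union]
    ext y
    simp only [mem_sdiff, mem_union]
    tauto
  have hd : Disjoint (rho D T \ X) (rho D S \ (rho D T ∪ X)) := by
    rw [Finset.disjoint_left]
    intro y h1 h2
    simp only [mem_sdiff, mem_union] at h1 h2
    tauto
  unfold dd
  rw [e1, card_union_of_disjoint hd, card_union_of_disjoint h]
  push_cast
  ring

/-- **(G)** for arc-minimal counterexamples. -/
theorem GG_of_min (D : OGraph V) (hD : CE D)
    (hmin : ∀ D'' : OGraph V, CE D'' → arcs D ≤ arcs D'') : GG D := by
  classical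
  intro X hX
  by_contra hcon
  push Not at hcon
  set L := rho D X \ X with hL
  have hLne : L.Nonempty := by
    rw [hL, sdiff_nonempty]
    intro h
    exact hX (subset_antisymm h (subset_rho _))
  have hdL : 0 ≤ dd D X L := by
    rw [← cc_diff]; linarith
  obtain ⟨T, hT, hTmin⟩ := Finset.exists_min_image (L.powerset.filter fun T => T ≠ L)
    (fun T => dd D X T) ⟨∅, mem_filter.2 ⟨mem_powerset.2 (empty_subset _), hLne.ne_empty.symm⟩⟩
  rw [mem_filter, mem_powerset] at hT
  have hT0 : dd D X T ≤ 0 := by
    have := hTmin ∅ (mem_filter.2 ⟨mem_powerset.2 (empty_subset _), hLne.ne_empty.symm⟩)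
    have e : dd D X ∅ = 0 := by
      have : rho D (∅ : Finset V) = ∅ := by
        ext y; simp [mem_rho]
      simp [dd, this]
    simpa [e] using this
  -- (1)
  have H1 : ∀ S : Finset V, S ⊆ L \ T → 2 * S.card ≤ (rho D S \ (rho D T ∪ X)).card := by
    intro S hS
    have hdis : Disjoint T S := by
      rw [Finset.disjoint_left]
      intro y h1 h2
      exact (mem_sdiff.1 (hS h2)).2 h1
    have e := dd_union D X T S hdis
    have hle : dd D X T ≤ dd D X (T ∪ S) := by
      by_cases hc : T ∪ S = L
      · rw [hc]; linarith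
      · refine hTmin _ (mem_filter.2 ⟨mem_powerset.2 ?_, hc⟩)
        exact union_subset hT.1 (hS.trans sdiff_subset)
    omega
  -- the graph
  set D' := del D X T with hD'
  have arc' : ∀ u v, D'.arc u v ↔ D.arc u v ∧ (u ∈ X → v ∈ X ∨ v ∈ T) := fun u v => Iff.rfl
  have sub1 : ∀ v, N1 D' v ⊆ N1 D v := by
    intro v u hu
    rw [mem_N1] at hu ⊢
    exact ((arc' v u).1 hu).1
  have hCE : CE D' := by
    intro y
    by_cases hy : y ∈ X
    · -- `y ∈ X`
      set Dy := (N1 D y).filter (fun z => z ∉ X ∧ z ∉ T) with hDy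
      have hDyL : Dy ⊆ L \ T := by
        intro z hz
        rw [hDy, mem_filter] at hz
        refine mem_sdiff.2 ⟨mem_sdiff.2 ⟨mem_rho.2 ⟨y, hy, Or.inr (mem_N1.1 hz.1)⟩, hz.2.1⟩, hz.2.2⟩
      have e1 : (N1 D' y).card + Dy.card = (N1 D y).card := by
        rw [← card_union_of_disjoint]
        · congr 1
          ext z
          rw [mem_union, hDy, mem_filter, mem_N1, mem_N1, arc']
          tauto
        · rw [Finset.disjoint_left]
          intro z h1 h2
          rw [mem_N1, arc'] at h1
          rw [hDy, mem_filter] at h2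
          rcases h1.2 hy with h | h
          · exact h2.2.1 h
          · exact h2.2.2 h
      set E := rho D Dy \ (rho D T ∪ X) with hE
      have e2 : 2 * Dy.card ≤ E.card := H1 Dy hDyL
      have hEsub : E ⊆ N2 D y ∪ Dy := by
        intro z hz
        rw [hE, mem_sdiff, mem_union, not_or] at hz
        obtain ⟨h1, h2, h3⟩ := hz
        obtain ⟨u, hu, huz⟩ := mem_rho.1 h1
        have hu' := hu
        rw [hDy, mem_filter] at hu'
        rw [mem_union]
        by_cases hzD : z ∈ Dy
        · exact Or.inr hzD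
        left
        have hzT : z ∉ T := fun h => h2 (subset_rho _ h)
        rcases huz with h | h
        · subst h; exact absurd hu hzD
        · rw [mem_N2]
          refine ⟨?_, ?_, u, mem_N1.1 hu'.1, h⟩
          · rintro rfl; exact h3 hy
          · intro h4
            exact hzD (by rw [hDy, mem_filter]; exact ⟨mem_N1.2 h4, h3, hzT⟩)
      have hN2sub : N2 D' y ⊆ (N2 D y ∪ Dy) \ E := by
        intro z hz
        rw [mem_N2] at hz
        obtain ⟨h1, h2, u, h3, h4⟩ := hz
        rw [arc'] at h2 h3 h4
        have hu := h3.2 hy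
        rw [mem_sdiff, mem_union]
        constructor
        · by_cases h5 : D.arc y z
          · right
            rw [hDy, mem_filter]
            refine ⟨mem_N1.2 h5, ?_, ?_⟩
            · intro h6; exact h2 ⟨h5, fun _ => Or.inl h6⟩
            · intro h6; exact h2 ⟨h5, fun _ => Or.inr h6⟩
          · left
            rw [mem_N2]
            exact ⟨h1, h5, u, h3.1, h4.1⟩
        · intro h5
          rw [hE, mem_sdiff, mem_union, not_or] at h5
          obtain ⟨_, h6, h7⟩ := h5
          have hzT : z ∉ T := fun h => h6 (subset_rho _ h)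
          rcases hu with hu | hu
          · rcases h4.2 hu with h8 | h8
            · exact h7 h8
            · exact hzT h8
          · exact h6 (mem_rho.2 ⟨u, hu, Or.inr h4.1⟩)
      have e3 := card_le_card hN2sub
      have e4 := card_sdiff_add_card_eq_card hEsub
      have e5 := card_union_le (N2 D y) Dy
      have e6 := hD y
      omega
    · -- `y ∉ X`
      have h1 : N1 D' y = N1 D y := by
        ext z
        rw [mem_N1, mem_N1, arc']
        exact ⟨fun h => h.1, fun h => ⟨h, fun h' => absurd h' hy⟩⟩
      have h2 : N2 D' y ⊆ N2 D y := by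
        intro z hz
        rw [mem_N2] at hz ⊢
        obtain ⟨k1, k2, u, k3, k4⟩ := hz
        refine ⟨k1, fun h => k2 ((arc' y z).2 ⟨h, fun h' => absurd h' hy⟩), u,
          ((arc' _ _).1 k3).1, ((arc' _ _).1 k4).1⟩
      rw [h1]
      exact (card_le_card h2).trans_lt (hD y)
  -- fewer arcs
  have hlt : arcs D' < arcs D := by
    have hne : ∃ z ∈ L, z ∉ T := by
      by_contra h
      push Not at h
      exact hT.2 (subset_antisymm hT.1 h)
    obtain ⟨z, hzL, hzT⟩ := hne
    rw [hL, mem_sdiff] at hzL
    obtain ⟨y, hy, hyz⟩ := mem_rho.1 hzL.1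
    have harc : D.arc y z := by
      rcases hyz with h | h
      · subst h; exact absurd hy hzL.2
      · exact h
    refine Finset.sum_lt_sum (fun v _ => card_le_card (sub1 v)) ⟨y, mem_univ _, ?_⟩
    refine card_lt_card ⟨sub1 y, fun h => ?_⟩
    have := mem_N1.1 (h (mem_N1.2 harc))
    rcases ((arc' y z).1 this).2 hy with h | h
    · exact hzL.2 h
    · exact hzT h
  exact absurd (hmin D' hCE) (by omega)

omit [DecidableEq V] in
/-- **Row 1.** -/
theorem exists_GG (D : OGraph V) (hD : CE D) : ∃ D' : OGraph V, CE D' ∧ GG D' := by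
  classical
  obtain ⟨D', h1, h2⟩ := exists_arc_min D hD
  exact ⟨D', h1, GG_of_min D' h1 h2⟩

end Vale.Agent.P038.H183
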