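import Vale.Agent.P038.H183.Defs

/-!
# P038: the greedy basis lemma (row 2 of note 23183)
-/

namespace Vale.Agent.P038.H183

open Finset

variable {V : Type*} [Fintype V] [DecidableEq V]

theorem rho_union (D : OGraph V) (Z Z' : Finset V) : rho D (Z ∪ Z') = rho D Z ∪ rho D Z' := by
  ext y
  simp only [mem_rho, mem_union]
  constructor
  · rintro ⟨z, hz | hz, h⟩
    · exact Or.inl ⟨z, hz, h⟩
    · exact Or.inr ⟨z, hz, h⟩
  · rintro (⟨z, hz, h⟩ | ⟨z, hz, h⟩)
    · exact ⟨z, Or.inl hz, h⟩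
    · exact ⟨z, Or.inr hz, h⟩

theorem rho_inter (D : OGraph V) (Z Z' : Finset V) : rho D (Z ∩ Z') ⊆ rho D Z ∩ rho D Z' := by
  intro y hy
  exact mem_inter.2 ⟨rho_mono inter_subset_left hy, rho_mono inter_subset_right hy⟩

/-- The value of one cut. -/
noncomputable def val (D : OGraph V) (I F Z : Finset V) : ℕ := (I \ Z).card + (rho D Z ∩ F).card

/-- The minimum cut. -/
noncomputable def rr (D : OGraph V) (S I F : Finset V) : ℕ :=
  sInf {n | ∃ Z, S ⊆ Z ∧ Z ⊆ I ∧ n = val D I F Z}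

theorem rr_le {D : OGraph V} {S I F Z : Finset V} (h1 : S ⊆ Z) (h2 : Z ⊆ I) :
    rr D S I F ≤ val D I F Z := Nat.sInf_le ⟨Z, h1, h2, rfl⟩

theorem rr_ex (D : OGraph V) {S I : Finset V} (h : S ⊆ I) (F : Finset V) :
    ∃ Z, S ⊆ Z ∧ Z ⊆ I ∧ rr D S I F = val D I F Z :=
  Nat.sInf_mem (s := {n | ∃ Z, S ⊆ Z ∧ Z ⊆ I ∧ n = val D I F Z}) ⟨_, I, h, Subset.refl _, rfl⟩

omit [Fintype V] in
theorem card_sdiff_modular {I I' Z Z' : Finset V} (h : Z ⊆ I) (hI : I ⊆ I') (_h' : Z' ⊆ I') :
    (I' \ (Z ∪ Z')).card + (I \ (Z ∩ Z')).card = (I' \ Z').card + (I \ Z).card := by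
  have e1 : (I' \ Z').card = (I' \ (Z ∪ Z')).card + (Z \ Z').card := by
    rw [← card_union_of_disjoint]
    · congr 1
      ext a
      simp only [mem_sdiff, mem_union]
      constructor
      · rintro ⟨h1, h2⟩
        by_cases h3 : a ∈ Z
        · exact Or.inr ⟨h3, h2⟩
        · exact Or.inl ⟨h1, fun h => h.elim h3 h2⟩
      · rintro (⟨h1, h2⟩ | ⟨h1, h2⟩)
        · exact ⟨h1, fun h => h2 (Or.inr h)⟩
        · exact ⟨hI (h h1), h2⟩
    · rw [Finset.disjoint_left]
      intro a h1 h2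
      simp only [mem_sdiff, mem_union] at h1 h2
      exact h1.2 (Or.inl h2.1)
  have e2 : (I \ (Z ∩ Z')).card = (I \ Z).card + (Z \ Z').card := by
    rw [← card_union_of_disjoint]
    · congr 1
      ext a
      simp only [mem_sdiff, mem_union, mem_inter]
      constructor
      · rintro ⟨h1, h2⟩
        by_cases h3 : a ∈ Z
        · exact Or.inr ⟨h3, fun h4 => h2 ⟨h3, h4⟩⟩
        · exact Or.inl ⟨h1, h3⟩
      · rintro (⟨h1, h2⟩ | ⟨h1, h2⟩)
        · exact ⟨h1, fun h => h2 h.1⟩
        · exact ⟨h h1, fun h => h2 h.2⟩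
    · rw [Finset.disjoint_left]
      intro a h1 h2
      simp only [mem_sdiff] at h1 h2
      exact h1.2 h2.1
  omega

/-- Uncrossing, for two sets of women `F ⊆ F'` and `F'` attached to `Z'`. -/
theorem card_uncross (D : OGraph V) (Z Z' F F' : Finset V) (hF : F ⊆ F') :
    (rho D (Z ∪ Z') ∩ F).card + (rho D (Z ∩ Z') ∩ F').card
      ≤ (rho D Z' ∩ F').card + (rho D Z ∩ F).card := by
  have h1 : (rho D (Z ∪ Z') ∩ F).card + (rho D (Z ∩ Z') ∩ F').card
      = ((rho D Z ∪ rho D Z') ∩ F).card + (rho D (Z ∩ Z') ∩ F').card := by rw [rho_union]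
  have h2 : ((rho D Z ∪ rho D Z') ∩ F).card + (rho D (Z ∩ Z') ∩ F').card
      = (((rho D Z ∪ rho D Z') ∩ F) ∪ (rho D (Z ∩ Z') ∩ F')).card
        + (((rho D Z ∪ rho D Z') ∩ F) ∩ (rho D (Z ∩ Z') ∩ F')).card :=
    (card_union_add_card_inter _ _).symm
  have h3 : (rho D Z' ∩ F').card + (rho D Z ∩ F).card
      = ((rho D Z' ∩ F') ∪ (rho D Z ∩ F)).card + ((rho D Z' ∩ F') ∩ (rho D Z ∩ F)).card :=
    (card_union_add_card_inter _ _).symm
  have hi := rho_inter D Z Z'
  have h4 : (((rho D Z ∪ rho D Z') ∩ F) ∪ (rho D (Z ∩ Z') ∩ F')) ⊆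
      ((rho D Z' ∩ F') ∪ (rho D Z ∩ F)) := by
    intro y hy
    simp only [mem_union, mem_inter] at hy ⊢
    rcases hy with ⟨h | h, hf⟩ | ⟨h, hf⟩
    · exact Or.inr ⟨h, hf⟩
    · exact Or.inl ⟨h, hF hf⟩
    · exact Or.inl ⟨(mem_inter.1 (hi h)).2, hf⟩
  have h5 : (((rho D Z ∪ rho D Z') ∩ F) ∩ (rho D (Z ∩ Z') ∩ F')) ⊆
      ((rho D Z' ∩ F') ∩ (rho D Z ∩ F)) := by
    intro y hy
    simp only [mem_union, mem_inter] at hy ⊢
    obtain ⟨⟨_, hf⟩, h, hf'⟩ := hy
    exact ⟨⟨(mem_inter.1 (hi h)).2, hf'⟩, (mem_inter.1 (hi h)).1, hf⟩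
  have h6 := card_le_card h4
  have h7 := card_le_card h5
  omega

/-- Men and women are complements. -/
theorem rr_mono (D : OGraph V) {S I S' I' F F' : Finset V} (h : S ⊆ I) (h' : S' ⊆ I')
    (hS : S ⊆ S') (hI : I ⊆ I') (hF : F ⊆ F') :
    rr D S' I' F + rr D S I F' ≤ rr D S' I' F' + rr D S I F := by
  obtain ⟨Z', a1, a2, a3⟩ := rr_ex D h' F'
  obtain ⟨Z, b1, b2, b3⟩ := rr_ex D h F
  have c1 : rr D S' I' F ≤ val D I' F (Z ∪ Z') :=
    rr_le (a1.trans subset_union_right) (union_subset (b2.trans hI) a2)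
  have c2 : rr D S I F' ≤ val D I F' (Z ∩ Z') :=
    rr_le (subset_inter b1 (hS.trans a1)) (inter_subset_left.trans b2)
  have c3 := card_sdiff_modular b2 hI a2
  have c4 := card_uncross D Z Z' F F' hF
  unfold val at *
  omega

theorem rr_subset (D : OGraph V) {S I F F' : Finset V} (h : S ⊆ I) (hF : F ⊆ F') :
    rr D S I F ≤ rr D S I F' := by
  obtain ⟨Z, a1, a2, a3⟩ := rr_ex D h F'
  have c1 : rr D S I F ≤ val D I F Z := rr_le a1 a2
  have c2 : (rho D Z ∩ F).card ≤ (rho D Z ∩ F').card := card_le_card (inter_subset_inter_left hF)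
  unfold val at *
  omega

theorem rr_insert_le (D : OGraph V) {S I : Finset V} (h : S ⊆ I) (F : Finset V) (y : V) :
    rr D S I (insert y F) ≤ rr D S I F + 1 := by
  obtain ⟨Z, a1, a2, a3⟩ := rr_ex D h F
  have c1 : rr D S I (insert y F) ≤ val D I (insert y F) Z := rr_le a1 a2
  have c2 : (rho D Z ∩ insert y F).card ≤ (rho D Z ∩ F).card + 1 := by
    refine (card_le_card (?_ : rho D Z ∩ insert y F ⊆ insert y (rho D Z ∩ F))).trans
      (card_insert_le _ _)
    intro z hz
    simp only [mem_inter, mem_insert] at hz ⊢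
    tauto
  unfold val at *
  omega

/-- The women before rank `k`. -/
def pre (f : V → ℕ) (k : ℕ) : Finset V := univ.filter fun z => f z < k

theorem pre_succ_of_mem {f : V → ℕ} (hf : Function.Injective f) (y : V) :
    pre f (f y + 1) = insert y (pre f (f y)) := by
  ext z
  simp only [pre, mem_filter, mem_univ, true_and, mem_insert]
  constructor
  · intro h
    rcases Nat.lt_succ_iff_lt_or_eq.1 h with h | h
    · exact Or.inr h
    · exact Or.inl (hf h)
  · rintro (h | h)
    · rw [h]; omega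
    · omega

omit [DecidableEq V] in
theorem pre_succ_of_not {f : V → ℕ} {k : ℕ} (hk : ∀ y, f y ≠ k) : pre f (k + 1) = pre f k := by
  ext z
  simp only [pre, mem_filter, mem_univ, true_and]
  have := hk z
  omega

/-- The greedy basis. -/
noncomputable def MM (D : OGraph V) (f : V → ℕ) (S I : Finset V) : Finset V :=
  univ.filter fun y => rr D S I (pre f (f y)) < rr D S I (pre f (f y + 1))

theorem mem_MM {D : OGraph V} {f : V → ℕ} {S I : Finset V} {y : V} :
    y ∈ MM D f S I ↔ rr D S I (pre f (f y)) < rr D S I (pre f (f y + 1)) := by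
  simp [MM]

theorem card_MM_pre (D : OGraph V) {f : V → ℕ} (hf : Function.Injective f) {S I : Finset V}
    (h : S ⊆ I) (k : ℕ) :
    (MM D f S I ∩ pre f k).card + rr D S I ∅ = rr D S I (pre f k) := by
  induction k with
  | zero =>
    have : pre f 0 = ∅ := by
      ext z; simp [pre]
    rw [this]
    simp
  | succ k ih =>
    by_cases hk : ∃ y, f y = k
    · obtain ⟨y, rfl⟩ := hk
      have e := pre_succ_of_mem hf y
      have hy : y ∉ pre f (f y) := by simp [pre]
      have u1 : rr D S I (pre f (f y + 1)) ≤ rr D S I (pre f (f y)) + 1 := by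
        rw [e]; exact rr_insert_le D h _ y
      have u2 : rr D S I (pre f (f y)) ≤ rr D S I (pre f (f y + 1)) := by
        rw [e]; exact rr_subset D h (subset_insert _ _)
      by_cases hm : y ∈ MM D f S I
      · have e2 : MM D f S I ∩ pre f (f y + 1) = insert y (MM D f S I ∩ pre f (f y)) := by
          rw [e]
          ext z
          simp only [mem_inter, mem_insert]
          constructor
          · rintro ⟨h1, h2 | h2⟩
            · exact Or.inl h2
            · exact Or.inr ⟨h1, h2⟩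
          · rintro (h1 | h1)
            · subst h1; exact ⟨hm, Or.inl rfl⟩
            · exact ⟨h1.1, Or.inr h1.2⟩
        rw [e2, card_insert_of_notMem (fun h => hy (mem_inter.1 h).2)]
        have := mem_MM.1 hm
        omega
      · have e2 : MM D f S I ∩ pre f (f y + 1) = MM D f S I ∩ pre f (f y) := by
          rw [e]
          ext z
          simp only [mem_inter, mem_insert]
          constructor
          · rintro ⟨h1, h2 | h2⟩
            · subst h2; exact absurd h1 hm
            · exact ⟨h1, h2⟩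
          · rintro ⟨h1, h2⟩
            exact ⟨h1, Or.inr h2⟩
        rw [e2]
        have : ¬ (rr D S I (pre f (f y)) < rr D S I (pre f (f y + 1))) := fun h => hm (mem_MM.2 h)
        omega
    · have e := pre_succ_of_not (f := f) (k := k) (fun y hy => hk ⟨y, hy⟩)
      rw [e]
      exact ih

theorem rr_empty (D : OGraph V) {S I : Finset V} (h : S ⊆ I) : rr D S I ∅ = 0 := by
  have : rr D S I ∅ ≤ val D I ∅ I := rr_le h (Subset.refl _)
  simpa [val] using this

theorem card_MM (D : OGraph V) {f : V → ℕ} (hf : Function.Injective f) {S I : Finset V}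
    (h : S ⊆ I) : (MM D f S I).card = rr D S I univ := by
  have key := card_MM_pre D hf h (univ.sup f + 1)
  have e : pre f (univ.sup f + 1) = univ := by
    ext z
    simp only [pre, mem_filter, mem_univ, true_and, iff_true]
    have := Finset.le_sup (f := f) (mem_univ z)
    omega
  rw [e, rr_empty D h] at key
  simpa using key

theorem MM_mono (D : OGraph V) {f : V → ℕ} {S I S' I' : Finset V} (h : S ⊆ I) (h' : S' ⊆ I')
    (hS : S ⊆ S') (hI : I ⊆ I') : MM D f S I ⊆ MM D f S' I' := by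
  intro y hy
  rw [mem_MM] at hy ⊢
  have := rr_mono D h h' hS hI (F := pre f (f y)) (F' := pre f (f y + 1)) (by
    intro z hz
    simp only [pre, mem_filter, mem_univ, true_and] at hz ⊢
    omega)
  omega

theorem rr_univ (D : OGraph V) {S I B : Finset V} (h1 : S ⊆ B) (h2 : B ⊆ I)
    (hB : ∀ Z, S ⊆ Z → Z ⊆ I → cc D B ≤ cc D Z) :
    rr D S I univ = val D I univ B := by
  apply le_antisymm (rr_le h1 h2)
  obtain ⟨Z, a1, a2, a3⟩ := rr_ex D (h1.trans h2) univ
  rw [a3]
  have h := hB Z a1 a2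
  unfold cc at h
  unfold val
  have e1 := card_sdiff_add_card_eq_card h2
  have e2 := card_sdiff_add_card_eq_card a2
  simp only [inter_univ]
  omega

theorem val_opt (D : OGraph V) {S I B : Finset V} (h2 : B ⊆ I)
    (hB : ∀ Z, S ⊆ Z → Z ⊆ I → cc D B ≤ cc D Z) {Z : Finset V} (a1 : S ⊆ Z) (a2 : Z ⊆ I) :
    val D I univ B ≤ val D I univ Z := by
  have h := hB Z a1 a2
  unfold cc at h
  unfold val
  have e1 := card_sdiff_add_card_eq_card h2
  have e2 := card_sdiff_add_card_eq_card a2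
  simp only [inter_univ]
  omega

/-- The greedy basis contains `N[B]`, `B` an optimal cut. -/
theorem rho_subset_MM (D : OGraph V) {f : V → ℕ} (hf : Function.Injective f)
    {S I B : Finset V} (h1 : S ⊆ B) (h2 : B ⊆ I)
    (hB : ∀ Z, S ⊆ Z → Z ⊆ I → cc D B ≤ cc D Z) : rho D B ⊆ MM D f S I := by
  intro y hy
  rw [mem_MM, pre_succ_of_mem hf y]
  have hyn : y ∉ pre f (f y) := by simp [pre]
  set F := pre f (f y) with hF
  obtain ⟨Z, a1, a2, a3⟩ := rr_ex D (h1.trans h2) (insert y F)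
  -- uncross
  have c3 := card_sdiff_modular (I := I) (I' := I) (Z := Z) (Z' := B) a2 (Subset.refl _) h2
  have c4 := card_uncross D Z B (insert y F) univ (subset_univ _)
  have c5 := val_opt D h2 hB (Z := Z ∩ B) (subset_inter a1 h1) (inter_subset_left.trans a2)
  have c6 : rr D S I F ≤ val D I F (Z ∪ B) :=
    rr_le (a1.trans subset_union_left) (union_subset a2 h2)
  have c7 : (rho D (Z ∪ B) ∩ insert y F).card = (rho D (Z ∪ B) ∩ F).card + 1 := by
    have hyB : y ∈ rho D (Z ∪ B) := rho_mono subset_union_right hy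
    have e : rho D (Z ∪ B) ∩ insert y F = insert y (rho D (Z ∪ B) ∩ F) := by
      ext z
      simp only [mem_inter, mem_insert]
      constructor
      · rintro ⟨h1, h2 | h2⟩
        · exact Or.inl h2
        · exact Or.inr ⟨h1, h2⟩
      · rintro (h1 | h1)
        · subst h1; exact ⟨hyB, Or.inl rfl⟩
        · exact ⟨h1.1, Or.inr h1.2⟩
    rw [e, card_insert_of_notMem (fun h => hyn (mem_inter.1 h).2)]
  unfold val at *
  omega

theorem MM_subset (D : OGraph V) {f : V → ℕ} (hf : Function.Injective f) {S I : Finset V}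
    (h : S ⊆ I) : MM D f S I ⊆ rho D I := by
  intro y hy
  rw [mem_MM, pre_succ_of_mem hf y] at hy
  by_contra hn
  obtain ⟨Z, a1, a2, a3⟩ := rr_ex D h (pre f (f y))
  have c1 : rr D S I (insert y (pre f (f y))) ≤ val D I (insert y (pre f (f y))) Z := rr_le a1 a2
  have e : rho D Z ∩ insert y (pre f (f y)) = rho D Z ∩ pre f (f y) := by
    ext z
    simp only [mem_inter, mem_insert]
    constructor
    · rintro ⟨h1, h2 | h2⟩
      · subst h2; exact absurd (rho_mono a2 h1) hn
      · exact ⟨h1, h2⟩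
    · rintro ⟨h1, h2⟩
      exact ⟨h1, Or.inr h2⟩
  unfold val at *
  rw [e] at c1
  omega

/-- **The greedy basis lemma.** -/
theorem greedy (D : OGraph V) :
    ∃ M : Finset V → Finset V → Finset V,
    (∀ S I B : Finset V, S ⊆ B → B ⊆ I → (∀ Z, S ⊆ Z → Z ⊆ I → cc D B ≤ cc D Z) →
      ((M S I).card : ℤ) = I.card + cc D B ∧ M S I ⊆ rho D I ∧ rho D B ⊆ M S I) ∧
    (∀ S I S' I' : Finset V, S ⊆ I → S' ⊆ I' → S ⊆ S' → I ⊆ I' → M S I ⊆ M S' I') := by
  let e := Fintype.equivFin V
  let f : V → ℕ := fun y => (e y).val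
  have hf : Function.Injective f := fun a b h => e.injective (Fin.ext h)
  refine ⟨MM D f, ?_, ?_⟩
  · intro S I B h1 h2 hB
    refine ⟨?_, MM_subset D hf (h1.trans h2), rho_subset_MM D hf h1 h2 hB⟩
    rw [card_MM D hf (h1.trans h2), rr_univ D h1 h2 hB]
    have e1 := card_sdiff_add_card_eq_card h2
    unfold val cc
    simp only [inter_univ]
    push_cast
    omega
  · intro S I S' I' h h' hS hI
    exact MM_mono D h h' hS hI

end Vale.Agent.P038.H183
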